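import Vale.Agent.P082.Every.D.Mean

/-!
# P082, type I: the average over one homogeneous block
-/

namespace Vale.Agent.P082.Every.D

open scoped Topology Classical
open Filter

universe u

variable {H : Type u} [NormedAddCommGroup H] [InnerProductSpace ℂ H] [CompleteSpace H]
variable {M : VonNeumannAlgebra H}

/-- Matrix units with an abelian corner adding up to the central projection `z`. -/
structure IsBlk (z : Alg M) {k : ℕ} (e : Fin (k + 1) → Fin (k + 1) → Alg M) : Prop where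
  mul : ∀ a b c d, e a b * e c d = if b = c then e a d else 0
  star_eq : ∀ a b, star (e a b) = e b a
  sum : ∑ a, e a a = z
  central : ∀ x, z * x = x * z
  abel : ∀ x y, (e 0 0 * x * e 0 0) * (e 0 0 * y * e 0 0) =
    (e 0 0 * y * e 0 0) * (e 0 0 * x * e 0 0)

/-- The unitaries equal to one off `p`. -/
def Cor (p : Alg M) : Submonoid (Alg M) where
  carrier := {u | u ∈ unitary (Alg M) ∧ (1 - p) * u = 1 - p ∧ u * (1 - p) = 1 - p}
  one_mem' := ⟨one_mem _, mul_one _, one_mul _⟩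
  mul_mem' := fun {u v} hu hv => ⟨mul_mem hu.1 hv.1, by rw [← mul_assoc, hu.2.1, hv.2.1],
    by rw [mul_assoc, hv.2.2, hu.2.2]⟩

theorem Cor.comm {p u : Alg M} (hu : u ∈ Cor p) : p * u = u * p := by
  have h := hu.2.1.trans hu.2.2.symm
  rw [sub_mul, one_mul, mul_sub, mul_one] at h
  exact sub_right_injective h

namespace IsBlk

variable {z : Alg M} {k : ℕ} {e : Fin (k + 1) → Fin (k + 1) → Alg M}

theorem z_mul (h : IsBlk z e) (a b : Fin (k + 1)) : z * e a b = e a b := by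
  rw [← h.sum, Finset.sum_mul, Finset.sum_eq_single a
    (fun c _ hc => by rw [h.mul, if_neg hc]) (fun hn => absurd (Finset.mem_univ a) hn), h.mul,
    if_pos rfl]

theorem isStarProjection (h : IsBlk z e) : IsStarProjection z := by
  refine ⟨?_, ?_⟩
  · show z * z = z
    conv_lhs => arg 2; rw [← h.sum]
    rw [Finset.mul_sum, Finset.sum_congr rfl fun a _ => h.z_mul a a, h.sum]
  · show star z = z
    rw [← h.sum, star_sum]
    exact Finset.sum_congr rfl fun a _ => h.star_eq a a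

theorem corner_idem (h : IsBlk z e) : e 0 0 * e 0 0 = e 0 0 := by rw [h.mul, if_pos rfl]

theorem commute_cor (h : IsBlk z e) {u v : Alg M} (hu : u ∈ Cor (e 0 0)) (hv : v ∈ Cor (e 0 0)) :
    u * v = v * u := by
  have hp : ∀ w ∈ Cor (e 0 0), e 0 0 * w = e 0 0 * w * e 0 0 := fun w hw => by
    rw [mul_assoc, ← Cor.comm hw, ← mul_assoc, h.corner_idem]
  have hq : ∀ a b : Alg M, a ∈ Cor (e 0 0) → b ∈ Cor (e 0 0) →
      a * b = (1 - e 0 0) + e 0 0 * a * e 0 0 * (e 0 0 * b * e 0 0) := by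
    intro a b ha hb
    have h1 : e 0 0 * a * (e 0 0 * b) = e 0 0 * (a * b) := by
      rw [mul_assoc, ← mul_assoc a, ← Cor.comm ha, mul_assoc (e 0 0) a, ← mul_assoc, h.corner_idem]
    rw [← hp a ha, ← hp b hb, h1]
    conv_lhs => rw [← one_mul (a * b), ← sub_add_cancel 1 (e 0 0), add_mul]
    rw [((Cor (e 0 0)).mul_mem ha hb).2.1]
  rw [hq u v hu hv, hq v u hv hu, h.abel]

/-- The monomial unitary of the block. -/
noncomputable def g (_ : IsBlk z e) (t : Fin (k + 1) → Cor (e 0 0))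
    (σ : Equiv.Perm (Fin (k + 1))) : Alg M :=
  ∑ c, e (σ c) 0 * (t c : Alg M) * e 0 c

theorem z_mul_g (h : IsBlk z e) (t : Fin (k + 1) → Cor (e 0 0)) (σ : Equiv.Perm (Fin (k + 1))) :
    z * h.g t σ = h.g t σ := by
  rw [g, Finset.mul_sum]
  exact Finset.sum_congr rfl fun c _ => by rw [← mul_assoc, ← mul_assoc, h.z_mul]

theorem mid (h : IsBlk z e) (a b : Fin (k + 1)) {u v : Alg M} (hu : u ∈ Cor (e 0 0)) :
    e a 0 * u * e 0 0 * v * e 0 b = e a 0 * (u * v) * e 0 b := by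
  rw [mul_assoc (e a 0) u (e 0 0), ← Cor.comm hu, ← mul_assoc (e a 0), h.mul, if_pos rfl,
    ← mul_assoc (e a 0)]

theorem g_mul (h : IsBlk z e) (s t : Fin (k + 1) → Cor (e 0 0))
    (ρ σ : Equiv.Perm (Fin (k + 1))) :
    h.g s ρ * h.g t σ = h.g ((fun c => s (σ c)) * t) (ρ * σ) := by
  rw [g, g, g, Finset.sum_mul_sum, Finset.sum_comm]
  refine Finset.sum_congr rfl fun d _ => ?_
  rw [Finset.sum_eq_single (σ d) (fun c _ hc => ?_) (fun hn => absurd (Finset.mem_univ _) hn)]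
  · rw [show e (ρ (σ d)) 0 * (s (σ d) : Alg M) * e 0 (σ d) * (e (σ d) 0 * (t d : Alg M) * e 0 d) =
      e (ρ (σ d)) 0 * (s (σ d) : Alg M) * (e 0 (σ d) * e (σ d) 0) * (t d : Alg M) * e 0 d by
        simp only [mul_assoc], h.mul, if_pos rfl, h.mid _ _ (s (σ d)).2]
    rfl
  · rw [show e (ρ c) 0 * (s c : Alg M) * e 0 c * (e (σ d) 0 * (t d : Alg M) * e 0 d) =
      e (ρ c) 0 * (s c : Alg M) * (e 0 c * e (σ d) 0) * (t d : Alg M) * e 0 d by
        simp only [mul_assoc], h.mul, if_neg hc, mul_zero, zero_mul, zero_mul]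

theorem star_g_mul_g (h : IsBlk z e) (t : Fin (k + 1) → Cor (e 0 0))
    (σ : Equiv.Perm (Fin (k + 1))) : star (h.g t σ) * h.g t σ = z := by
  rw [g, star_sum, Finset.sum_mul_sum, ← h.sum]
  refine Finset.sum_congr rfl fun c _ => ?_
  have hc : ∀ d, star (e (σ c) 0 * (t c : Alg M) * e 0 c) * (e (σ d) 0 * (t d : Alg M) * e 0 d) =
      e c 0 * star (t c : Alg M) * (e 0 (σ c) * e (σ d) 0) * (t d : Alg M) * e 0 d := fun d => by
    simp only [star_mul, h.star_eq, mul_assoc]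
  rw [Finset.sum_eq_single c (fun d _ hd => ?_) (fun hn => absurd (Finset.mem_univ _) hn)]
  · rw [hc, h.mul, if_pos rfl, mul_assoc (e c 0 * star (t c : Alg M)) (e 0 0),
      Cor.comm (t c).2, ← mul_assoc, mul_assoc (e c 0) (star (t c : Alg M)),
      Unitary.star_mul_self_of_mem (t c).2.1, mul_one, h.mul, if_pos rfl, h.mul, if_pos rfl]
  · rw [hc, h.mul, if_neg fun h' => hd (σ.injective h').symm, mul_zero, zero_mul, zero_mul]

theorem g_mul_star_g (h : IsBlk z e) (t : Fin (k + 1) → Cor (e 0 0))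
    (σ : Equiv.Perm (Fin (k + 1))) : h.g t σ * star (h.g t σ) = z := by
  rw [g, star_sum, Finset.sum_mul_sum, ← h.sum, ← Equiv.sum_comp σ fun c => e c c]
  refine Finset.sum_congr rfl fun c _ => ?_
  have hc : ∀ d, e (σ c) 0 * (t c : Alg M) * e 0 c * star (e (σ d) 0 * (t d : Alg M) * e 0 d) =
      e (σ c) 0 * (t c : Alg M) * (e 0 c * e d 0) * star (t d : Alg M) * e 0 (σ d) := fun d => by
    simp only [star_mul, h.star_eq, mul_assoc]
  rw [Finset.sum_eq_single c (fun d _ hd => ?_) (fun hn => absurd (Finset.mem_univ _) hn)]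
  · rw [hc, h.mul, if_pos rfl, h.mid _ _ (t c).2, Unitary.mul_star_self_of_mem (t c).2.1, mul_one,
      h.mul, if_pos rfl]
  · rw [hc, h.mul, if_neg (Ne.symm hd), mul_zero, zero_mul, zero_mul]

theorem g_z (h : IsBlk z e) (t : Fin (k + 1) → Cor (e 0 0)) (σ : Equiv.Perm (Fin (k + 1))) :
    star (h.g t σ) * z = star (h.g t σ) := by
  have := congrArg star (h.z_mul_g t σ)
  rwa [star_mul, h.isStarProjection.isSelfAdjoint.star_eq] at this

theorem norm_g_le (h : IsBlk z e) (t : Fin (k + 1) → Cor (e 0 0))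
    (σ : Equiv.Perm (Fin (k + 1))) : ‖h.g t σ‖ ≤ 1 := by
  have h1 : ‖h.g t σ‖ * ‖h.g t σ‖ ≤ 1 := by
    rw [← CStarRing.norm_star_mul_self, h.star_g_mul_g]
    exact IsStarProjection.norm_le z h.isStarProjection
  nlinarith [norm_nonneg (h.g t σ)]

theorem g_mul_star (h : IsBlk z e) (s t : Fin (k + 1) → Cor (e 0 0))
    (ρ σ : Equiv.Perm (Fin (k + 1))) :
    star (h.g t σ) = star (h.g ((fun c => s (σ c)) * t) (ρ * σ)) * h.g s ρ := by
  rw [← h.g_mul, star_mul, mul_assoc, h.star_g_mul_g, h.g_z]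

/-- The monomial unitaries span the block. -/
theorem span (h : IsBlk z e) (Z : Submodule ℂ (Alg M)) (hZ : ∀ t σ, h.g t σ ∈ Z) (x : Alg M) :
    z * x ∈ Z := by
  have hps : star (e 0 0) = e 0 0 := h.star_eq 0 0
  have hunit : ∀ (a b : Fin (k + 1)) (w : Alg M), w ∈ unitary (Alg M) → e 0 0 * w = w * e 0 0 →
      e a 0 * w * e 0 b ∈ Z := by
    intro a b w hw hwc
    have hmk : ∀ c : ℂ, star c * c = 1 → (1 - e 0 0) + c • (e 0 0 * w) ∈ Cor (e 0 0) := by
      intro c hc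
      have h10 : (1 - e 0 0) * e 0 0 = 0 := by rw [sub_mul, one_mul, h.corner_idem, sub_self]
      have h01 : e 0 0 * (1 - e 0 0) = 0 := by rw [mul_sub, mul_one, h.corner_idem, sub_self]
      have hsub : (1 - e 0 0) * (1 - e 0 0) = 1 - e 0 0 := by
        rw [sub_mul, one_mul, h01, sub_zero]
      have hl : (1 - e 0 0) * ((1 - e 0 0) + c • (e 0 0 * w)) = 1 - e 0 0 := by
        rw [mul_add, mul_smul_comm, ← mul_assoc, h10, zero_mul, smul_zero, add_zero, hsub]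
      have hr : ((1 - e 0 0) + c • (e 0 0 * w)) * (1 - e 0 0) = 1 - e 0 0 := by
        rw [add_mul, smul_mul_assoc, hwc, mul_assoc, h01, mul_zero, smul_zero, add_zero, hsub]
      have hws : e 0 0 * star w = star w * e 0 0 := by
        have := congrArg star hwc
        rw [star_mul, star_mul, hps] at this
        exact this.symm
      refine ⟨Unitary.mem_iff.2 ⟨?_, ?_⟩, hl, hr⟩
      · rw [star_add, star_smul, star_sub, star_one, hps, star_mul, hps, add_mul, hl, mul_add,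
          smul_mul_assoc, mul_assoc, h01, mul_zero, smul_zero, zero_add, smul_mul_smul_comm, hc,
          one_smul, mul_assoc, ← mul_assoc (e 0 0) (e 0 0), h.corner_idem, hwc, ← mul_assoc,
          Unitary.star_mul_self_of_mem hw, one_mul, sub_add_cancel]
      · rw [star_add, star_smul, star_sub, star_one, hps, star_mul, hps, mul_add, hr, add_mul,
          mul_smul_comm, ← hws, ← mul_assoc, h10, zero_mul, smul_zero, zero_add,
          smul_mul_smul_comm, mul_comm c, hc, one_smul, mul_assoc, ← mul_assoc w, ← hwc,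
          mul_assoc (e 0 0) w, Unitary.mul_star_self_of_mem hw, mul_one, h.corner_idem,
          sub_add_cancel]
    set u : Cor (e 0 0) := ⟨_, hmk 1 (by simp)⟩
    set u' : Cor (e 0 0) := ⟨_, hmk (-1) (by simp)⟩
    have hd : e a 0 * w * e 0 b = (2 : ℂ)⁻¹ • (h.g (fun c => if c = b then u else 1) (Equiv.swap a b)
        - h.g (fun c => if c = b then u' else 1) (Equiv.swap a b)) := by
      rw [g, g, ← Finset.sum_sub_distrib, Finset.sum_eq_single b
        (fun c _ hc => by rw [if_neg hc, if_neg hc, sub_self])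
        (fun hn => absurd (Finset.mem_univ _) hn), if_pos rfl, if_pos rfl, Equiv.swap_apply_right,
        ← sub_mul, ← mul_sub]
      have hu : (u : Alg M) - (u' : Alg M) = (2 : ℂ) • (e 0 0 * w) := by
        show (1 - e 0 0 + (1 : ℂ) • (e 0 0 * w)) - (1 - e 0 0 + (-1 : ℂ) • (e 0 0 * w)) = _
        module
      rw [hu, mul_smul_comm, smul_mul_assoc, smul_smul, inv_mul_cancel₀ two_ne_zero, one_smul,
        ← mul_assoc (e a 0), h.mul, if_pos rfl]
    rw [hd]
    exact Z.smul_mem _ (Z.sub_mem (hZ _ _) (hZ _ _))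
  have hcorn : ∀ (a b : Fin (k + 1)) (y : Alg M),
      e a 0 * (e 0 0 * y * e 0 0) * e 0 b ∈ Z := by
    intro a b y
    let N := StarSubalgebra.centralizer ℂ ({e 0 0} : Set (Alg M))
    have hN : IsClosed (N : Set (Alg M)) := Set.isClosed_centralizer _
    have : IsClosed (N : Set (Alg M)) := hN
    have hy : e 0 0 * y * e 0 0 ∈ N := by
      rw [StarSubalgebra.mem_centralizer_iff]
      rintro c rfl
      rw [hps]
      have e1 : e 0 0 * (e 0 0 * y * e 0 0) = e 0 0 * y * e 0 0 * e 0 0 := by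
        rw [← mul_assoc, ← mul_assoc, h.corner_idem, mul_assoc _ (e 0 0) (e 0 0), h.corner_idem]
      exact ⟨e1, e1⟩
    obtain ⟨v, c, hv, -⟩ := CStarAlgebra.exists_sum_four_unitary (⟨_, hy⟩ : N)
    have hv' := congrArg Subtype.val hv
    rw [AddSubmonoidClass.coe_finsetSum] at hv'
    change e 0 0 * y * e 0 0 = _ at hv'
    rw [hv', Finset.mul_sum, Finset.sum_mul]
    refine sum_mem fun i _ => ?_
    change e a 0 * (c i • ((v i : N) : Alg M)) * e 0 b ∈ Z
    rw [mul_smul_comm, smul_mul_assoc]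
    exact Z.smul_mem _ (hunit a b _ (Unitary.mem_iff.2
      ⟨congrArg Subtype.val (Unitary.star_mul_self_of_mem (v i).2),
        congrArg Subtype.val (Unitary.mul_star_self_of_mem (v i).2)⟩)
      (((StarSubalgebra.mem_centralizer_iff (R := ℂ)).1 (v i : N).2) _ rfl).1)
  have hx : z * x = ∑ a, ∑ b, e a 0 * (e 0 0 * (e 0 a * x * e b 0) * e 0 0) * e 0 b := by
    have h2 : ∀ a b, e a 0 * (e 0 0 * (e 0 a * x * e b 0) * e 0 0) * e 0 b =
        e a a * x * e b b := fun a b => by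
      simp only [← mul_assoc, h.mul, if_true]
      simp only [mul_assoc, h.mul, if_true]
    calc z * x = z * x * z := by
          rw [mul_assoc, ← h.central x, ← mul_assoc, h.isStarProjection.isIdempotentElem.eq]
      _ = ∑ a, ∑ b, e a a * x * e b b := by rw [← h.sum, Finset.sum_mul, Finset.sum_mul_sum]
      _ = _ := Finset.sum_congr rfl fun a _ => Finset.sum_congr rfl fun b _ => (h2 a b).symm
  rw [hx]
  exact sum_mem fun a _ => sum_mem fun b _ => hcorn a b _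

/-- The function averaged on the block. -/
noncomputable def cst (h : IsBlk z e) (φ : Alg M →L[ℂ] Alg M) (σ : Equiv.Perm (Fin (k + 1)))
    (t : Fin (k + 1) → Cor (e 0 0)) : Alg M :=
  φ (h.g t σ) * star (h.g t σ)

theorem norm_cst_le (h : IsBlk z e) (φ : Alg M →L[ℂ] Alg M) (σ : Equiv.Perm (Fin (k + 1)))
    (t : Fin (k + 1) → Cor (e 0 0)) : ‖h.cst φ σ t‖ ≤ ‖φ‖ := by
  refine (norm_mul_le _ _).trans ?_
  rw [norm_star]
  calc ‖φ (h.g t σ)‖ * ‖h.g t σ‖ ≤ ‖φ‖ * ‖h.g t σ‖ * ‖h.g t σ‖ :=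
        mul_le_mul_of_nonneg_right (φ.le_opNorm _) (norm_nonneg _)
    _ ≤ ‖φ‖ * 1 * 1 := by
        gcongr <;> exact h.norm_g_le t σ
    _ = ‖φ‖ := by ring

theorem cst_comp_g (h : IsBlk z e) (φ : Alg M →L[ℂ] Alg M) (s t : Fin (k + 1) → Cor (e 0 0))
    (ρ σ : Equiv.Perm (Fin (k + 1))) :
    h.cst (φ.comp (ContinuousLinearMap.mul ℂ (Alg M) (h.g s ρ))) σ t =
      h.cst φ (ρ * σ) ((fun c => s (σ c)) * t) * h.g s ρ := by
  show φ (h.g s ρ * h.g t σ) * star (h.g t σ) = φ _ * star _ * h.g s ρ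
  rw [h.g_mul, h.g_mul_star s t ρ σ, ← mul_assoc]

theorem cst_comp_mul (h : IsBlk z e) (φ : Alg M →L[ℂ] Alg M) (v : Alg M)
    (t : Fin (k + 1) → Cor (e 0 0)) (σ : Equiv.Perm (Fin (k + 1))) :
    h.cst (φ.comp (ContinuousLinearMap.mul ℂ (Alg M) v)) σ t =
      h.cst (φ.comp (ContinuousLinearMap.mul ℂ (Alg M) (z * v))) σ t := by
  show φ (v * h.g t σ) * _ = φ (z * v * h.g t σ) * _
  rw [h.central v, mul_assoc v, h.z_mul_g]

theorem cst_mul_z (h : IsBlk z e) (φ : Alg M →L[ℂ] Alg M) (t : Fin (k + 1) → Cor (e 0 0))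
    (σ : Equiv.Perm (Fin (k + 1))) : h.cst φ σ t * z = h.cst φ σ t := by
  rw [cst, mul_assoc, h.g_z]

theorem cst_left (h : IsBlk z e) (φ : Alg M →L[ℂ] Alg M) (c : Alg M)
    (t : Fin (k + 1) → Cor (e 0 0)) (σ : Equiv.Perm (Fin (k + 1))) :
    h.cst ((ContinuousLinearMap.mul ℂ (Alg M) c).comp φ) σ t = c * h.cst φ σ t :=
  mul_assoc _ _ _

theorem cst_fix (h : IsBlk z e) (c : Alg M) (t : Fin (k + 1) → Cor (e 0 0))
    (σ : Equiv.Perm (Fin (k + 1))) :
    h.cst (ContinuousLinearMap.mul ℂ (Alg M) c) σ t = c * z := by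
  show c * h.g t σ * star (h.g t σ) = c * z
  rw [mul_assoc, h.g_mul_star_g]

theorem cst_add (h : IsBlk z e) (φ ψ : Alg M →L[ℂ] Alg M) (t : Fin (k + 1) → Cor (e 0 0))
    (σ : Equiv.Perm (Fin (k + 1))) : h.cst (φ + ψ) σ t = h.cst φ σ t + h.cst ψ σ t := by
  simp only [cst, add_apply, add_mul]

theorem cst_smul (h : IsBlk z e) (φ : Alg M →L[ℂ] Alg M) (c : ℂ) (t : Fin (k + 1) → Cor (e 0 0))
    (σ : Equiv.Perm (Fin (k + 1))) : h.cst (c • φ) σ t = c • h.cst φ σ t := by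
  simp only [cst, smul_apply, smul_mul_assoc]

/-- Covariance passes from the monomial unitaries to the whole block. -/
theorem comp_mul_of_g (h : IsBlk z e) (Φ : (Alg M →L[ℂ] Alg M) →ₗ[ℂ] Alg M)
    (hg : ∀ s ρ φ, Φ (φ.comp (ContinuousLinearMap.mul ℂ (Alg M) (h.g s ρ))) = Φ φ * h.g s ρ)
    (x : Alg M) (φ : Alg M →L[ℂ] Alg M) :
    Φ (φ.comp (ContinuousLinearMap.mul ℂ (Alg M) (z * x))) = Φ φ * (z * x) := by
  revert φ
  let Z : Submodule ℂ (Alg M) :=
    { carrier := {v | ∀ φ, Φ (φ.comp (ContinuousLinearMap.mul ℂ (Alg M) v)) = Φ φ * v}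
      zero_mem' := fun φ => by
        rw [(ContinuousLinearMap.mul ℂ (Alg M)).map_zero, ContinuousLinearMap.comp_zero,
          Φ.map_zero, mul_zero]
      add_mem' := fun {x y} hx hy φ => by
        rw [(ContinuousLinearMap.mul ℂ (Alg M)).map_add, ContinuousLinearMap.comp_add,
          Φ.map_add, hx, hy, mul_add]
      smul_mem' := fun c x hx φ => by
        rw [(ContinuousLinearMap.mul ℂ (Alg M)).map_smul, ContinuousLinearMap.comp_smul,
          Φ.map_smul, hx, mul_smul_comm] }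
  exact h.span Z hg x

/-- The means of the monomial functions, one for each permutation. -/
theorem exists_means (h : IsBlk z e) :
    ∃ Ψ : Equiv.Perm (Fin (k + 1)) → (Alg M →L[ℂ] Alg M) →ₗ[ℂ] Alg M,
      (∀ σ φ, ‖Ψ σ φ‖ ≤ ‖φ‖) ∧ (∀ σ φ, Ψ σ φ * z = Ψ σ φ) ∧
      (∀ σ c φ, Ψ σ ((ContinuousLinearMap.mul ℂ (Alg M) c).comp φ) = c * Ψ σ φ) ∧
      (∀ σ ρ s (φ : Alg M →L[ℂ] Alg M), Ψ σ (φ.comp (ContinuousLinearMap.mul ℂ (Alg M) (h.g s ρ))) =
        Ψ (ρ * σ) φ * h.g s ρ) ∧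
      (∀ σ v (φ : Alg M →L[ℂ] Alg M), Ψ σ (φ.comp (ContinuousLinearMap.mul ℂ (Alg M) v)) =
        Ψ σ (φ.comp (ContinuousLinearMap.mul ℂ (Alg M) (z * v)))) ∧
      ∀ σ c, Ψ σ (ContinuousLinearMap.mul ℂ (Alg M) c) = c * z := by
  let : CommMonoid (Cor (e 0 0)) :=
    { (inferInstance : Monoid (Cor (e 0 0))) with
      mul_comm := fun u v => Subtype.ext (h.commute_cor u.2 v.2) }
  obtain ⟨L, hL⟩ := exists_isMean M (Fin (k + 1) → Cor (e 0 0))
  have hb : ∀ φ σ, Bdd (h.cst φ σ) := fun φ σ => ⟨_, h.norm_cst_le φ σ⟩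
  refine ⟨fun σ =>
    { toFun := fun φ => L (h.cst φ σ)
      map_add' := fun φ ψ => by
        rw [← hL.add _ _ (hb φ σ) (hb ψ σ)]
        exact congrArg L (funext fun t => h.cst_add φ ψ t σ)
      map_smul' := fun c φ => by
        rw [RingHom.id_apply, ← hL.smul c _ (hb φ σ)]
        exact congrArg L (funext fun t => h.cst_smul φ c t σ) },
    fun σ φ => hL.norm_le _ _ (h.norm_cst_le φ σ), fun σ φ => ?_, fun σ c φ => ?_,
    fun σ ρ s φ => ?_, fun σ v φ => ?_, fun σ c => ?_⟩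
  · exact (hL.mul_right z _ (hb φ σ)).symm.trans
      (congrArg L (funext fun t => h.cst_mul_z φ t σ))
  · exact (congrArg L (funext fun t => h.cst_left φ c t σ)).trans (hL.mul_left c _ (hb φ σ))
  · show L _ = L (h.cst φ (ρ * σ)) * h.g s ρ
    rw [← hL.shift (fun c => s (σ c)) _ (hb φ (ρ * σ)),
      ← hL.mul_right _ _ ⟨‖φ‖, fun t => h.norm_cst_le φ (ρ * σ) _⟩]
    exact congrArg L (funext fun t => h.cst_comp_g φ s t ρ σ)
  · exact congrArg L (funext fun t => h.cst_comp_mul φ v t σ)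
  · exact (congrArg L (funext fun t => h.cst_fix c t σ)).trans (hL.const _)

/-- The average over the monomial unitaries. -/
theorem exists_avg (h : IsBlk z e) :
    ∃ Φ : (Alg M →L[ℂ] Alg M) →ₗ[ℂ] Alg M,
      (∀ φ, ‖Φ φ‖ ≤ ‖φ‖) ∧ (∀ φ, Φ φ * z = Φ φ) ∧
      (∀ c φ, Φ ((ContinuousLinearMap.mul ℂ (Alg M) c).comp φ) = c * Φ φ) ∧
      (∀ v φ, Φ (φ.comp (ContinuousLinearMap.mul ℂ (Alg M) v)) = Φ φ * v) ∧
      ∀ c, Φ (ContinuousLinearMap.mul ℂ (Alg M) c) = c * z := by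
  obtain ⟨Ψ, hn, hz, hl, hg, hv, hfix⟩ := h.exists_means
  let Φ : (Alg M →L[ℂ] Alg M) →ₗ[ℂ] Alg M := avg Ψ
  have hΦ : ∀ φ, Φ φ = avg fun σ => Ψ σ φ := fun φ =>
    Avg.avg_map (LinearMap.applyₗ φ) Ψ
  have hzΦ : ∀ φ, Φ φ * z = Φ φ := fun φ => by
    rw [hΦ]
    exact (Avg.avg_map (LinearMap.mulRight ℂ z) _).trans (Avg.avg_congr fun σ => hz σ φ)
  refine ⟨Φ, fun φ => ?_, hzΦ, fun c φ => ?_, fun v φ => ?_, fun c => ?_⟩
  · rw [hΦ]
    exact Avg.norm_avg_le fun σ => hn σ φ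
  · rw [hΦ, hΦ]
    exact (Avg.avg_congr fun σ => hl σ c φ).trans (Avg.avg_map (LinearMap.mulLeft ℂ c) _).symm
  · have hgΦ : ∀ s ρ ψ, Φ (ψ.comp (ContinuousLinearMap.mul ℂ (Alg M) (h.g s ρ))) =
        Φ ψ * h.g s ρ := fun s ρ ψ => by
      refine (hΦ _).trans ((Avg.avg_congr fun σ => hg σ ρ s ψ).trans ?_)
      refine (Avg.avg_map (LinearMap.mulRight ℂ (h.g s ρ)) (fun σ => Ψ (ρ * σ) ψ)).symm.trans ?_
      refine congrArg (fun x : Alg M => x * h.g s ρ) ?_
      exact (Avg.avg_equiv (Equiv.mulLeft ρ) fun τ => Ψ τ ψ).trans (hΦ ψ).symm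
    rw [hΦ, Avg.avg_congr fun σ => hv σ v φ, ← hΦ, h.comp_mul_of_g Φ hgΦ, ← mul_assoc, hzΦ]
  · rw [hΦ, Avg.avg_congr fun σ => hfix σ c]
    exact Avg.avg_const _

end IsBlk

end Vale.Agent.P082.Every.D
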