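import Vale.Agent.P082.Every.Iface
import Vale.Agent.P082.Scope.Sums

/-!
# P082, type I: copies of an abelian projection
-/

namespace Vale.Agent.P082.Every.D

open scoped InnerProductSpace
open Scope Vale.Agent.P078.General Vale.Agent.P132.Homog

universe u

variable {H : Type u} [NormedAddCommGroup H] [InnerProductSpace ℂ H] [CompleteSpace H]
variable {M : VonNeumannAlgebra H}

/-- `f` has an abelian corner. -/
def IsAbelian (M : VonNeumannAlgebra H) (f : H →L[ℂ] H) : Prop :=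
  ∀ x ∈ M, ∀ y ∈ M, (f * x * f) * (f * y * f) = (f * y * f) * (f * x * f)

/-- `k` orthogonal copies of `h`. -/
structure Copies (M : VonNeumannAlgebra H) {k : ℕ} (h : H →L[ℂ] H)
    (w : Fin k → H →L[ℂ] H) : Prop where
  mem : ∀ a, w a ∈ M
  fix : ∀ a, w a * h = w a
  mul : ∀ a b, star (w a) * w b = if a = b then h else 0

/-- A central projection that is a finite sum of copies of an abelian projection. -/
def IsHom (M : VonNeumannAlgebra H) (z : H →L[ℂ] H) : Prop :=
  z ∈ M ∧ IsStarProjection z ∧ (∀ x ∈ M, z * x = x * z) ∧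
    ∃ (k : ℕ) (h : H →L[ℂ] H) (w : Fin (k + 1) → H →L[ℂ] H),
      IsAbelian M h ∧ Copies M h w ∧ ∑ a, w a * star (w a) = z

/-- A projection of `M` below `g`, not zero. -/
structure IsSub (M : VonNeumannAlgebra H) (g h : H →L[ℂ] H) : Prop where
  mem : h ∈ M
  proj : IsStarProjection h
  le : g * h = h
  ne_zero : h ≠ 0

theorem IsSub.right {g h : H →L[ℂ] H} (hs : IsSub M g h) (hg : IsStarProjection g) : h * g = h := by
  have := congrArg Star.star hs.le
  rwa [star_mul, hs.proj.isSelfAdjoint.star_eq, hg.isSelfAdjoint.star_eq] at this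

theorem IsSub.trans {f g h : H →L[ℂ] H} (h1 : IsSub M f g) (h2 : IsSub M g h) : IsSub M f h :=
  ⟨h2.mem, h2.proj, by rw [← h2.le, ← mul_assoc, h1.le], h2.ne_zero⟩

theorem IsAbelian.of_sub {f h : H →L[ℂ] H} (hf : IsAbelian M f) (hfp : IsStarProjection f)
    (hs : IsSub M f h) : IsAbelian M h := fun x hx y hy => by
  have h1 : ∀ y, f * (h * y * h) * f = h * y * h := fun y => by
    rw [← mul_assoc, ← mul_assoc, hs.le, mul_assoc _ h f, hs.right hfp]
  have := hf _ (mul_mem (mul_mem hs.mem hx) hs.mem) _ (mul_mem (mul_mem hs.mem hy) hs.mem)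
  rwa [h1, h1] at this

/-- Orthogonal subprojections of an abelian projection have orthogonal corners. -/
theorem cross_eq_zero {f h h' : H →L[ℂ] H} (hf : IsAbelian M f) (hfp : IsStarProjection f)
    (hs : IsSub M f h) (hs' : IsSub M f h') (ho : h * h' = 0) {x : H →L[ℂ] H} (hx : x ∈ M) :
    h * x * h' = 0 := by
  have h0 : f * h * f = h := by rw [hs.le, hs.right hfp]
  calc h * x * h' = (f * h * f) * (f * x * f) * h' := by
        rw [h0]; simp only [← mul_assoc, hs.right hfp]; simp only [mul_assoc, hs'.le]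
    _ = (f * x * f) * (f * h * f) * h' := by rw [hf h hs.mem x hx]
    _ = 0 := by rw [h0, mul_assoc, ho, mul_zero]

namespace Copies

variable {k : ℕ} {h : H →L[ℂ] H} {w : Fin k → H →L[ℂ] H}

theorem pi (hw : Copies M h w) (a : Fin k) : w a * (star (w a) * w a) = w a := by
  rw [hw.mul, if_pos rfl, hw.fix]

theorem norm_eq (hw : Copies M h w) (a : Fin k) (v : H) : ‖w a v‖ = ‖h v‖ := by
  rw [norm_pi_apply (hw.pi a), hw.mul, if_pos rfl]

theorem tgt_proj (hw : Copies M h w) (a : Fin k) : IsStarProjection (w a * star (w a)) :=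
  ⟨by rw [IsIdempotentElem, mul_assoc, ← mul_assoc (star (w a)), hw.mul, if_pos rfl, ← mul_assoc,
    hw.fix], IsSelfAdjoint.mul_star_self _⟩

theorem norm_star_eq (hw : Copies M h w) (a : Fin k) (v : H) :
    ‖star (w a) v‖ = ‖(w a * star (w a)) v‖ := by
  have h1 : star (w a) * (star (star (w a)) * star (w a)) = star (w a) := by
    rw [star_star]
    have := congrArg Star.star (hw.pi a)
    rwa [star_mul, star_mul, star_star, mul_assoc] at this
  rw [norm_pi_apply h1, star_star]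

theorem tgt_sum_proj (hw : Copies M h w) : IsStarProjection (∑ a, w a * star (w a)) := by
  refine ⟨?_, isSelfAdjoint_sum _ fun a _ => IsSelfAdjoint.mul_star_self (w a)⟩
  show (∑ a, w a * star (w a)) * ∑ a, w a * star (w a) = _
  rw [Finset.sum_mul_sum]
  refine Finset.sum_congr rfl fun a _ => ?_
  rw [Finset.sum_eq_single a (fun b _ hb => by
    rw [mul_assoc, ← mul_assoc (star (w a)), hw.mul, if_neg (Ne.symm hb), zero_mul, mul_zero])
    (fun hn => absurd (Finset.mem_univ a) hn)]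
  exact (hw.tgt_proj a).isIdempotentElem.eq

end Copies

omit [CompleteSpace H] in
theorem summable_norm_apply_sq {ξ : ℕ → H} (hξ : Summable fun n => ‖ξ n‖ ^ 2) (x : H →L[ℂ] H) :
    Summable fun n => ‖x (ξ n)‖ ^ 2 :=
  Summable.of_nonneg_of_le (fun _ => sq_nonneg _)
    (fun _ => (pow_le_pow_left₀ (norm_nonneg _) (x.le_opNorm _) 2).trans_eq (mul_pow _ _ _))
    (hξ.mul_left _)

/-- A trace bounds the number of copies. -/
theorem trace_bound {f : H →L[ℂ] H} (hf : IsAbelian M f) (hfp : IsStarProjection f)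
    {ξ : ℕ → H} (hξ : Summable fun n => ‖ξ n‖ ^ 2)
    (htr : ∀ x ∈ M, ∑' n, ‖star x (ξ n)‖ ^ 2 = ∑' n, ‖x (ξ n)‖ ^ 2) {k : ℕ}
    {ι : Type*} (t : Finset ι) (h : ι → H →L[ℂ] H) (w : ι → Fin k → H →L[ℂ] H)
    (hs : ∀ i ∈ t, IsSub M f (h i)) (ho : ∀ i ∈ t, ∀ j ∈ t, i ≠ j → h i * h j = 0)
    (hw : ∀ i ∈ t, Copies M (h i) (w i)) (n₀ : ℕ) :
    (k : ℝ) * ∑ i ∈ t, ‖h i (ξ n₀)‖ ^ 2 ≤ ∑' n, ‖ξ n‖ ^ 2 := by
  have hsum := summable_norm_apply_sq hξ
  set s := t ×ˢ (Finset.univ : Finset (Fin k)) with hsdef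
  have hmem : ∀ p ∈ s, p.1 ∈ t := fun p hp => (Finset.mem_product.1 hp).1
  have horth : ∀ p q : s, p ≠ q → w p.1.1 p.1.2 * star (w p.1.1 p.1.2) *
      (w q.1.1 q.1.2 * star (w q.1.1 q.1.2)) = 0 := by
    rintro ⟨⟨i, a⟩, hi⟩ ⟨⟨j, b⟩, hj⟩ hne
    have hi' := hmem _ hi
    have hj' := hmem _ hj
    rw [mul_assoc, ← mul_assoc (star (w i a))]
    suffices hz : star (w i a) * w j b = 0 by rw [hz, zero_mul, mul_zero]
    rcases eq_or_ne i j with rfl | hij
    · rw [(hw i hi').mul, if_neg fun h' => hne (Subtype.ext (Prod.ext rfl h'))]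
    · have h1 : star (w i a) = h i * star (w i a) := by
        conv_lhs => rw [← (hw i hi').fix a]
        rw [star_mul, (hs i hi').proj.isSelfAdjoint.star_eq]
      rw [h1, ← (hw j hj').fix b, ← mul_assoc, mul_assoc (h i)]
      exact cross_eq_zero hf hfp (hs i hi') (hs j hj') (ho i hi' j hj' hij)
        (mul_mem (star_mem ((hw i hi').mem a)) ((hw j hj').mem b))
  calc (k : ℝ) * ∑ i ∈ t, ‖h i (ξ n₀)‖ ^ 2
      ≤ (k : ℝ) * ∑ i ∈ t, ∑' n, ‖h i (ξ n)‖ ^ 2 :=
        mul_le_mul_of_nonneg_left (Finset.sum_le_sum fun i _ =>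
          (hsum (h i)).le_tsum n₀ fun n _ => sq_nonneg _) (Nat.cast_nonneg k)
    _ = ∑ p ∈ s, ∑' n, ‖star (w p.1 p.2) (ξ n)‖ ^ 2 := by
        rw [hsdef, Finset.sum_product, Finset.mul_sum]
        refine Finset.sum_congr rfl fun i hi => ?_
        rw [Finset.sum_congr rfl fun a _ => (htr _ ((hw i hi).mem a)).trans
          (tsum_congr fun n => by rw [(hw i hi).norm_eq a]), Finset.sum_const, Finset.card_univ,
          Fintype.card_fin, nsmul_eq_mul]
    _ = ∑' n, ∑ p ∈ s, ‖star (w p.1 p.2) (ξ n)‖ ^ 2 :=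
        (Summable.tsum_finsetSum fun p _ => hsum _).symm
    _ ≤ ∑' n, ‖ξ n‖ ^ 2 := by
        refine Summable.tsum_le_tsum (fun n => ?_) (summable_sum fun p _ => hsum _) hξ
        rw [← Finset.sum_attach]
        refine le_trans (le_of_eq (Finset.sum_congr rfl fun p _ => by
          rw [(hw _ (hmem _ p.2)).norm_star_eq]))
          (sum_sq_proj_le (ι := s) (p := fun p => w p.1.1 p.1.2 * star (w p.1.1 p.1.2))
            (fun p => (hw _ (hmem _ p.2)).tgt_proj _) horth (ξ n))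

end Vale.Agent.P082.Every.D
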