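import Vale.Agent.P082.Every.D.Copies

/-!
# P082, type I: the homogeneous decomposition
-/

namespace Vale.Agent.P082.Every.D

open scoped InnerProductSpace
open Scope Vale.Agent.P078.General Vale.Agent.P132.Homog

universe u

variable {H : Type u} [NormedAddCommGroup H] [InnerProductSpace ℂ H] [CompleteSpace H]
variable {M : VonNeumannAlgebra H}

/-- A partial isometry inside a nonzero element. -/
theorem exists_piece_pi {a : H →L[ℂ] H} (haM : a ∈ M) (ha : a ≠ 0) :
    ∃ v ∈ M, v ≠ 0 ∧ v * (star v * v) = v ∧ (∀ l, l * a = a → l * v = v) ∧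
      ∀ r, a * r = a → v * r = v := by
  obtain ⟨u, hu⟩ : ∃ u, a u ≠ 0 := by
    by_contra hcon
    push Not at hcon
    exact ha (ContinuousLinearMap.ext hcon)
  have h0 : 0 < ‖a u‖ := norm_pos_iff.2 hu
  set δ := ‖a u‖ / (4 * (‖u‖ + 1)) with hδ
  have hδ0 : 0 < δ := by positivity
  obtain ⟨n, w, hfam, hl, hr, happ⟩ := exists_fam M haM hδ0
  obtain ⟨i, hi⟩ : ∃ i, w i ≠ 0 := by
    by_contra hcon
    push Not at hcon
    have h1 := happ u
    simp only [hcon, smul_zero, Finset.sum_const_zero, zero_apply, sub_zero] at h1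
    have h2 : δ * (‖u‖ + 1) = ‖a u‖ / 4 := by rw [hδ]; field_simp
    nlinarith [norm_nonneg u]
  exact ⟨w i, hfam.mem i, hi, hfam.pi i, fun l hla => hl l hla i, fun r hra => hr r hra i⟩

/-- Maximal orthogonal families of subprojections exhaust. -/
theorem exists_exhaust {f : H →L[ℂ] H} (hfp : IsStarProjection f) (hfM : f ∈ M)
    {Q : (H →L[ℂ] H) → Prop} (hQ : ∀ g, IsSub M f g → ∃ h, IsSub M g h ∧ Q h) :
    ∃ B : Set (H →L[ℂ] H), (∀ h ∈ B, IsSub M f h ∧ Q h) ∧
      (∀ h ∈ B, ∀ h' ∈ B, h ≠ h' → h * h' = 0) ∧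
      ∀ v : H, HasSum (fun h : B => h.1 v) (f v) := by
  set S : Set (Set (H →L[ℂ] H)) :=
    {B | (∀ h ∈ B, IsSub M f h ∧ Q h) ∧ ∀ h ∈ B, ∀ h' ∈ B, h ≠ h' → h * h' = 0} with hS
  obtain ⟨B, ⟨hB1, hB2⟩, hmax⟩ := zorn_subset S fun c hc hchain => by
    refine ⟨⋃₀ c, ⟨?_, ?_⟩, fun a ha => Set.subset_sUnion_of_mem ha⟩
    · rintro h ⟨a, ha, hh⟩
      exact (hc ha).1 h hh
    · rintro h ⟨a, ha, hh⟩ h' ⟨b, hb, hh'⟩ hne
      rcases hchain.total ha hb with hab | hab
      · exact (hc hb).2 h (hab hh) h' hh' hne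
      · exact (hc ha).2 h hh h' (hab hh') hne
  have hd : IsDiag (fun i : B => i.1) fun i => i.1 :=
    { proj := fun i => (hB1 _ i.2).1.proj
      orth := fun i j hij => hB2 _ i.2 _ j.2 fun h => hij (Subtype.ext h)
      left := fun i => (hB1 _ i.2).1.proj.isIdempotentElem.eq
      right := fun i => (hB1 _ i.2).1.proj.isIdempotentElem.eq
      norm_le := fun i => IsStarProjection.norm_le i.1 (hB1 _ i.2).1.proj }
  have hgM : hd.sum ∈ M := hd.sum_mem fun i => (hB1 _ i.2).1.mem
  have hfg : f * hd.sum = hd.sum := hd.mul_sum_left fun i => (hB1 _ i.2).1.le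
  have hgg : hd.sum * hd.sum = hd.sum := by
    rw [hd.sum_mul hd]
    refine ContinuousLinearMap.ext fun v => ?_
    rw [IsDiag.sum_apply, IsDiag.sum_apply]
    exact tsum_congr fun i => congrArg (· v) (hB1 _ i.2).1.proj.isIdempotentElem.eq
  have hgs : star hd.sum = hd.sum := by
    rw [hd.star_sum]
    refine ContinuousLinearMap.ext fun v => ?_
    rw [IsDiag.sum_apply, IsDiag.sum_apply]
    exact tsum_congr fun i => congrArg (· v) (hB1 _ i.2).1.proj.isSelfAdjoint.star_eq
  have hgf : hd.sum * f = hd.sum := by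
    have := congrArg Star.star hfg
    rwa [star_mul, hgs, hfp.isSelfAdjoint.star_eq] at this
  have hgi : ∀ i : B, hd.sum * i.1 = i.1 := fun i => ContinuousLinearMap.ext fun v => by
    rw [mul_apply_eq_comp, IsDiag.sum_apply, tsum_eq_single i fun j hj => ?_]
    · exact congrArg (· v) (hB1 _ i.2).1.proj.isIdempotentElem.eq
    · show (j.1 * i.1) v = 0
      rw [hB2 _ j.2 _ i.2 fun h => hj (Subtype.ext h)]
      rfl
  have hfull : hd.sum = f := by
    by_contra hne
    have hsub : IsSub M f (f - hd.sum) :=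
      ⟨sub_mem hfM hgM,
        ⟨by
          show (f - hd.sum) * (f - hd.sum) = f - hd.sum
          rw [sub_mul, mul_sub, mul_sub, hfp.isIdempotentElem.eq, hfg, hgf, hgg, sub_self, sub_zero],
          hfp.isSelfAdjoint.sub hgs⟩,
        by rw [mul_sub, hfp.isIdempotentElem.eq, hfg], sub_ne_zero.2 (Ne.symm hne)⟩
    obtain ⟨h, hh, hQh⟩ := hQ _ hsub
    have horth : ∀ h' ∈ B, h * h' = 0 ∧ h' * h = 0 := by
      intro h' hh'
      have h1 : (f - hd.sum) * h' = 0 := by
        rw [sub_mul, (hB1 _ hh').1.le, hgi ⟨h', hh'⟩, sub_self]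
      have h2 : h * h' = 0 := by
        rw [← hh.right hsub.proj, mul_assoc, h1, mul_zero]
      refine ⟨h2, ?_⟩
      have := congrArg Star.star h2
      rwa [star_mul, hh.proj.isSelfAdjoint.star_eq, (hB1 _ hh').1.proj.isSelfAdjoint.star_eq,
        star_zero] at this
    have hin : insert h B ∈ S := by
      refine ⟨?_, ?_⟩
      · rintro a (rfl | ha)
        exacts [⟨hsub.trans hh, hQh⟩, hB1 a ha]
      · rintro a (rfl | ha) b (rfl | hb) hab
        exacts [absurd rfl hab, (horth b hb).1, (horth a ha).2, hB2 a ha b hb hab]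
    have hhB : h ∈ B := hmax hin (Set.subset_insert h B) (Set.mem_insert h B)
    exact hh.ne_zero (hh.proj.isIdempotentElem.eq.symm.trans (horth h hhB).1)
  refine ⟨B, hB1, hB2, fun v => ?_⟩
  rw [← hfull]
  exact (hd.summable v).hasSum

/-- Below every nonzero central projection there is a homogeneous one. -/
theorem exists_hom (hT : HasNormalTraces M) (hI : IsTypeI M) {p : H →L[ℂ] H} (hpM : p ∈ M)
    (hp : IsStarProjection p) (hpc : ∀ x ∈ M, p * x = x * p) (hp0 : p ≠ 0) :
    ∃ z, IsSub M p z ∧ IsHom M z := by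
  obtain ⟨f, hfM, hfp, hpf, hf0, hfab⟩ := hI p hpM hp hpc hp0
  obtain ⟨ξ, hξ, htr, n₀, hn₀⟩ := hT f hfM hf0
  let Q : ℕ → (H →L[ℂ] H) → Prop := fun k g => ∃ w : Fin (k + 1) → H →L[ℂ] H, Copies M g w
  have hbad : ∃ k, ∃ g, IsSub M f g ∧ ∀ h, IsSub M g h → ¬ Q k h := by
    by_contra hcon
    push Not at hcon
    have hpos : 0 < ‖f (ξ n₀)‖ ^ 2 := pow_pos (norm_pos_iff.2 hn₀) 2
    obtain ⟨k, hk⟩ := exists_nat_gt ((∑' n, ‖ξ n‖ ^ 2) / ‖f (ξ n₀)‖ ^ 2)
    obtain ⟨B, hB1, hB2, hB3⟩ := exists_exhaust (Q := Q k) hfp hfM fun g hg => hcon k g hg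
    have hwit : ∀ i : B, ∃ w : Fin (k + 1) → H →L[ℂ] H, Copies M i.1 w := fun i => (hB1 _ i.2).2
    choose w hw using hwit
    have hle : ((k + 1 : ℕ) : ℝ) * ‖f (ξ n₀)‖ ^ 2 ≤ ∑' n, ‖ξ n‖ ^ 2 := by
      refine le_of_tendsto (((hB3 (ξ n₀)).norm.pow 2).const_mul _)
        (Filter.Eventually.of_forall fun t => ?_)
      rw [norm_sq_sum_of_orth t (fun i : B => i.1 (ξ n₀)) fun i _ j _ hij =>
        inner_proj_orth (hB1 _ i.2).1.proj (hB2 _ i.2 _ j.2 fun h => hij (Subtype.ext h)) _ _]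
      exact trace_bound hfab hfp hξ htr t (fun i : B => i.1) w (fun i _ => (hB1 _ i.2).1)
        (fun i _ j _ hij => hB2 _ i.2 _ j.2 fun h => hij (Subtype.ext h)) (fun i _ => hw i) n₀
    rw [div_lt_iff₀ hpos] at hk
    push_cast at hle
    linarith
  classical
  obtain ⟨g, hg, hno⟩ := Nat.find_spec hbad
  have hk0 : Nat.find hbad ≠ 0 := fun h0 => by
    refine hno g ⟨hg.mem, hg.proj, hg.proj.isIdempotentElem.eq, hg.ne_zero⟩ ?_
    rw [h0]
    exact ⟨fun _ => g, fun _ => hg.mem, fun _ => hg.proj.isIdempotentElem.eq, fun a b => by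
      rw [if_pos (Subsingleton.elim (α := Fin 1) a b), hg.proj.isSelfAdjoint.star_eq,
        hg.proj.isIdempotentElem.eq]⟩
  obtain ⟨j, hj⟩ := Nat.exists_eq_succ_of_ne_zero hk0
  rw [hj] at hno
  obtain ⟨h, hh, w, hw⟩ : ∃ h, IsSub M g h ∧ Q j h := by
    by_contra hcon
    push Not at hcon
    exact Nat.find_min hbad (by omega) ⟨g, hg, hcon⟩
  have hfh : IsSub M f h := hg.trans hh
  set z := ∑ a, w a * star (w a) with hz
  have hzM : z ∈ M := sum_mem fun a _ => mul_mem (hw.mem a) (star_mem (hw.mem a))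
  have hzp : IsStarProjection z := hw.tgt_sum_proj
  have hzw : ∀ b, z * w b = w b := fun b => by
    rw [hz, Finset.sum_mul, Finset.sum_eq_single b
      (fun a _ ha => by rw [mul_assoc, hw.mul, if_neg ha, mul_zero])
      (fun hn => absurd (Finset.mem_univ b) hn), mul_assoc, hw.pi]
  have hcorner : ∀ x ∈ M, (1 - z) * x * h = 0 := by
    intro x hx
    by_contra hne
    obtain ⟨v, hvM, hv0, hvpi, hvl, hvr⟩ :=
      exists_piece_pi (mul_mem (mul_mem (sub_mem (one_mem M) hzM) hx) hfh.mem) hne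
    have hzv : (1 - z) * v = v := hvl _ (by
      rw [← mul_assoc, ← mul_assoc, hzp.one_sub.isIdempotentElem.eq])
    have hvh : v * h = v := hvr _ (by rw [mul_assoc, hfh.proj.isIdempotentElem.eq])
    have hh' : IsSub M h (star v * v) := by
      refine ⟨mul_mem (star_mem hvM) hvM,
        ⟨by rw [IsIdempotentElem, mul_assoc, hvpi], IsSelfAdjoint.star_mul_self v⟩, ?_, fun h0 => ?_⟩
      · have h1 := congrArg Star.star hvh
        rw [star_mul, hfh.proj.isSelfAdjoint.star_eq] at h1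
        rw [← mul_assoc, h1]
      · exact hv0 (by rw [← hvpi, h0, mul_zero])
    set h' := star v * v with hh'def
    have hvw : ∀ b, star v * w b = 0 := fun b => by
      rw [← hzv, star_mul, hzp.one_sub.isSelfAdjoint.star_eq, mul_assoc, sub_mul, one_mul, hzw,
        sub_self, mul_zero]
    have hwv : ∀ b, star (w b) * v = 0 := fun b => by
      have := congrArg Star.star (hvw b)
      rwa [star_mul, star_star, star_zero] at this
    refine hno h' (hh.trans hh') ?_
    refine ⟨(Fin.cons v (fun a => w a * h') : Fin (j + 1 + 1) → H →L[ℂ] H), fun a => ?_,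
      fun a => ?_, fun a b => ?_⟩
    · refine Fin.cases ?_ (fun i => ?_) a
      · simpa using hvM
      · simpa using mul_mem (hw.mem i) hh'.mem
    · refine Fin.cases ?_ (fun i => ?_) a
      · simpa using hvpi
      · simp only [Fin.cons_succ, mul_assoc, hh'.proj.isIdempotentElem.eq]
    · refine Fin.cases ?_ (fun i => ?_) a <;> refine Fin.cases ?_ (fun i' => ?_) b
      · simp [hh'def]
      · rw [Fin.cons_zero, Fin.cons_succ, ← mul_assoc, hvw, zero_mul,
          if_neg (Fin.succ_ne_zero i').symm]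
      · rw [Fin.cons_zero, Fin.cons_succ, star_mul, hh'.proj.isSelfAdjoint.star_eq, mul_assoc, hwv,
          mul_zero, if_neg (Fin.succ_ne_zero i)]
      · rw [Fin.cons_succ, Fin.cons_succ, star_mul, hh'.proj.isSelfAdjoint.star_eq, mul_assoc,
          ← mul_assoc (star (w i)), hw.mul]
        simp only [Fin.succ_inj]
        split_ifs
        · rw [hh'.le, hh'.proj.isIdempotentElem.eq]
        · rw [zero_mul, mul_zero]
  have hzx : ∀ x ∈ M, z * x * z = x * z := by
    intro x hx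
    have h1 : (1 - z) * (x * z) = 0 := by
      rw [hz, Finset.mul_sum, Finset.mul_sum]
      refine Finset.sum_eq_zero fun a _ => ?_
      rw [← mul_assoc x, ← mul_assoc]
      have := hcorner _ (mul_mem hx (hw.mem a))
      rw [mul_assoc, mul_assoc x, hw.fix] at this
      rw [this, zero_mul]
    rw [sub_mul, one_mul, sub_eq_zero, ← mul_assoc] at h1
    exact h1.symm
  have hcent : ∀ x ∈ M, z * x = x * z := by
    intro x hx
    have h2 := congrArg Star.star (hzx _ (star_mem hx))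
    simp only [star_mul, star_star, hzp.isSelfAdjoint.star_eq, ← mul_assoc] at h2
    rw [← h2, hzx x hx]
  have hph : p * h = h := by rw [← hfh.le, ← mul_assoc, hpf]
  refine ⟨z, ⟨hzM, hzp, ?_, fun h0 => ?_⟩, hzM, hzp, hcent, j, h, w,
    IsAbelian.of_sub hfab hfp hfh, hw, rfl⟩
  · rw [hz, Finset.mul_sum]
    refine Finset.sum_congr rfl fun a _ => ?_
    conv_lhs => rw [← mul_assoc, ← hw.fix a, ← mul_assoc p, hpc _ (hw.mem a), mul_assoc (w a) p, hph]
    rw [hw.fix]
  · have h1 := hw.mul 0 0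
    rw [if_pos rfl, show w 0 = 0 by rw [← hzw 0, h0, zero_mul], mul_zero] at h1
    exact hh.ne_zero h1.symm

/-- A type I algebra with separating traces is a sum of homogeneous ones. -/
theorem exists_partition (hT : HasNormalTraces M) (hI : IsTypeI M) :
    ∃ B : Set (H →L[ℂ] H), (∀ z ∈ B, IsHom M z) ∧ (∀ z ∈ B, ∀ z' ∈ B, z ≠ z' → z * z' = 0) ∧
      ∀ v : H, HasSum (fun z : B => z.1 v) v := by
  set S : Set (Set (H →L[ℂ] H)) :=
    {B | (∀ z ∈ B, IsHom M z) ∧ ∀ z ∈ B, ∀ z' ∈ B, z ≠ z' → z * z' = 0} with hS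
  obtain ⟨B, ⟨hB1, hB2⟩, hmax⟩ := zorn_subset S fun c hc hchain => by
    refine ⟨⋃₀ c, ⟨?_, ?_⟩, fun a ha => Set.subset_sUnion_of_mem ha⟩
    · rintro h ⟨a, ha, hh⟩
      exact (hc ha).1 h hh
    · rintro h ⟨a, ha, hh⟩ h' ⟨b, hb, hh'⟩ hne
      rcases hchain.total ha hb with hab | hab
      · exact (hc hb).2 h (hab hh) h' hh' hne
      · exact (hc ha).2 h hh h' (hab hh') hne
  have hd : IsDiag (fun i : B => i.1) fun i => i.1 :=
    { proj := fun i => (hB1 _ i.2).2.1
      orth := fun i j hij => hB2 _ i.2 _ j.2 fun h => hij (Subtype.ext h)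
      left := fun i => (hB1 _ i.2).2.1.isIdempotentElem.eq
      right := fun i => (hB1 _ i.2).2.1.isIdempotentElem.eq
      norm_le := fun i => IsStarProjection.norm_le i.1 (hB1 _ i.2).2.1 }
  have hzp : IsStarProjection hd.sum := by
    refine ⟨?_, ?_⟩
    · show hd.sum * hd.sum = hd.sum
      rw [hd.sum_mul hd]
      refine ContinuousLinearMap.ext fun v => ?_
      rw [IsDiag.sum_apply, IsDiag.sum_apply]
      exact tsum_congr fun i => congrArg (· v) (hB1 _ i.2).2.1.isIdempotentElem.eq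
    · show star hd.sum = hd.sum
      rw [hd.star_sum]
      refine ContinuousLinearMap.ext fun v => ?_
      rw [IsDiag.sum_apply, IsDiag.sum_apply]
      exact tsum_congr fun i => congrArg (· v) (hB1 _ i.2).2.1.isSelfAdjoint.star_eq
  have hcent : ∀ x ∈ M, hd.sum * x = x * hd.sum := fun x hx => ContinuousLinearMap.ext fun v => by
    rw [mul_apply_eq_comp, mul_apply_eq_comp, IsDiag.sum_apply, IsDiag.sum_apply,
      x.map_tsum (hd.summable v)]
    exact tsum_congr fun i => congrArg (fun T : H →L[ℂ] H => T v) ((hB1 _ i.2).2.2.1 x hx)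
  have hgi : ∀ i : B, hd.sum * i.1 = i.1 := fun i => ContinuousLinearMap.ext fun v => by
    rw [mul_apply_eq_comp, IsDiag.sum_apply, tsum_eq_single i fun j hj => ?_]
    · exact congrArg (· v) (hB1 _ i.2).2.1.isIdempotentElem.eq
    · show (j.1 * i.1) v = 0
      rw [hB2 _ j.2 _ i.2 fun h => hj (Subtype.ext h)]
      rfl
  have hfull : hd.sum = 1 := by
    by_contra hne
    obtain ⟨z, hz, hzh⟩ := exists_hom hT hI
      (sub_mem (one_mem M) (hd.sum_mem fun i => (hB1 _ i.2).1)) hzp.one_sub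
      (fun x hx => by rw [sub_mul, mul_sub, one_mul, mul_one, hcent x hx])
      (sub_ne_zero.2 (Ne.symm hne))
    have horth : ∀ z' ∈ B, z * z' = 0 ∧ z' * z = 0 := by
      intro z' hz'
      have h1 : z * z' = 0 := by
        rw [← hz.right hzp.one_sub, mul_assoc, sub_mul, one_mul, hgi ⟨z', hz'⟩, sub_self, mul_zero]
      refine ⟨h1, ?_⟩
      rw [hzh.2.2.1 z' (hB1 _ hz').1] at h1
      exact h1
    have hin : insert z B ∈ S := by
      refine ⟨?_, ?_⟩
      · rintro a (rfl | ha)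
        exacts [hzh, hB1 a ha]
      · rintro a (rfl | ha) b (rfl | hb) hab
        exacts [absurd rfl hab, (horth b hb).1, (horth a ha).2, hB2 a ha b hb hab]
    have hzB : z ∈ B := hmax hin (Set.subset_insert z B) (Set.mem_insert z B)
    exact hz.ne_zero (hz.proj.isIdempotentElem.eq.symm.trans (horth z hzB).1)
  refine ⟨B, hB1, hB2, fun v => ?_⟩
  have := (hd.summable v).hasSum
  rwa [← IsDiag.sum_apply hd, hfull] at this

end Vale.Agent.P082.Every.D
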