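import Vale.Agent.P082.Every.D.Block
import Vale.Agent.P082.Every.D.Decomp
import Vale.Agent.P082.Main

/-!
# P082: finite algebras of type I
-/

namespace Vale.Agent.P082.Every.D

open scoped InnerProductSpace Topology
open Filter Vale.Agent.P078.General Vale.Agent.P132.Homog

universe u

variable {H : Type u} [NormedAddCommGroup H] [InnerProductSpace ℂ H] [CompleteSpace H]
variable {M : VonNeumannAlgebra H}

theorem exists_blk {z : H →L[ℂ] H} (hz : IsHom M z) (hzM : z ∈ M) :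
    ∃ (k : ℕ) (e : Fin (k + 1) → Fin (k + 1) → Alg M), IsBlk (⟨z, hzM⟩ : Alg M) e := by
  obtain ⟨-, -, hc, k, h, w, hab, hw, hsum⟩ := hz
  refine ⟨k, fun a b => ⟨w a * star (w b), mul_mem (hw.mem a) (star_mem (hw.mem b))⟩,
    ⟨fun a b c d => ?_, fun a b => ?_, ?_, fun x => ?_, fun x y => ?_⟩⟩
  · apply Subtype.ext
    show w a * star (w b) * (w c * star (w d)) = _
    rw [mul_assoc, ← mul_assoc (star (w b)), hw.mul]
    split_ifs
    · rw [← mul_assoc, hw.fix]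
    · rw [zero_mul, mul_zero]
      rfl
  · exact Subtype.ext (by simp)
  · apply Subtype.ext
    rw [AddSubmonoidClass.coe_finsetSum]
    exact hsum
  · exact Subtype.ext (hc x x.2)
  · apply Subtype.ext
    obtain ⟨x, hx⟩ := x
    obtain ⟨y, hy⟩ := y
    set P := w 0 * star (w 0)
    show P * x * P * (P * y * P) = P * y * P * (P * x * P)
    have hPh : P = w 0 * h * star (w 0) := by rw [hw.fix]
    have hsw : star (w 0) * w 0 = h := by rw [hw.mul, if_pos rfl]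
    have hhh : h * h = h := by
      conv_lhs => arg 1; rw [← hsw]
      rw [mul_assoc, hw.fix, hsw]
    have key : ∀ a b : H →L[ℂ] H, P * a * P * (P * b * P) =
        w 0 * ((h * (star (w 0) * a * w 0) * h) * (h * (star (w 0) * b * w 0) * h)) * star (w 0) := by
      intro a b
      rw [hPh]
      simp only [mul_assoc]
      simp only [← mul_assoc (star (w 0)) (w 0), hsw]
      simp only [← mul_assoc h h, hhh]
    rw [key, key, hab _ (mul_mem (mul_mem (star_mem (hw.mem 0)) hx) (hw.mem 0)) _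
      (mul_mem (mul_mem (star_mem (hw.mem 0)) hy) (hw.mem 0))]

/-- A sum over orthogonal central projections is bounded by its largest term. -/
theorem norm_blocks_le {ι : Type*} {p : ι → H →L[ℂ] H} (hp : ∀ i, IsStarProjection (p i))
    (hc : ∀ i, ∀ x ∈ M, p i * x = x * p i) (ho : ∀ i j, i ≠ j → p i * p j = 0) (x : ι → Alg M)
    (hx : ∀ i, (x i : H →L[ℂ] H) * p i = x i) {C : ℝ} (hC : 0 ≤ C) (hn : ∀ i, ‖x i‖ ≤ C)
    (t : Finset ι) : ‖∑ i ∈ t, x i‖ ≤ C := by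
  show ‖((∑ i ∈ t, x i : Alg M) : H →L[ℂ] H)‖ ≤ C
  refine ContinuousLinearMap.opNorm_le_bound _ hC fun v => ?_
  refine (pow_le_pow_iff_left₀ (norm_nonneg _) (by positivity) two_ne_zero).1 ?_
  have hterm : ∀ i, (x i : H →L[ℂ] H) v = (x i : H →L[ℂ] H) (p i v) := fun i => by
    conv_lhs => rw [← hx i]
    rfl
  have hcomm : ∀ i, (x i : H →L[ℂ] H) v = p i ((x i : H →L[ℂ] H) v) := fun i => by
    conv_lhs => rw [← hx i, ← hc i _ (x i).2]
    rfl
  have horth : ∀ i ∈ t, ∀ j ∈ t, i ≠ j → ⟪(x i : H →L[ℂ] H) v, (x j : H →L[ℂ] H) v⟫_ℂ = 0 := by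
    intro i _ j _ hij
    rw [hcomm i, hcomm j]
    exact inner_proj_orth (hp i) (ho i j hij) _ _
  rw [AddSubmonoidClass.coe_finsetSum, sum_apply, norm_sq_sum_of_orth t _ horth, mul_pow]
  have hle : ∑ i ∈ t, ‖p i v‖ ^ 2 ≤ ‖v‖ ^ 2 := by
    rw [← Finset.sum_attach]
    exact sum_sq_proj_le (ι := t) (p := fun i => p i.1) (fun i => hp i.1)
      (fun i j hij => ho i.1 j.1 fun h => hij (Subtype.ext h)) v
  refine le_trans ?_ (mul_le_mul_of_nonneg_left hle (sq_nonneg C))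
  rw [Finset.mul_sum]
  refine Finset.sum_le_sum fun i _ => ?_
  rw [← mul_pow, hterm i]
  exact pow_le_pow_left₀ (norm_nonneg _)
    (((x i : H →L[ℂ] H).le_opNorm _).trans (mul_le_mul_of_nonneg_right (hn i) (norm_nonneg _))) 2

/-- The finite sums of orthogonal projections with full sum tend weakly to `1`. -/
theorem isWLim_one {ι : Type*} (z : ι → Alg M)
    (hz : ∀ v : H, HasSum (fun i => (z i : H →L[ℂ] H) v) v) (U : Ultrafilter (Finset ι))
    (hU : (U : Filter (Finset ι)) ≤ atTop) : Avg.IsWLim U (fun t => ∑ i ∈ t, z i) 1 := fun v w => by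
  have h2 : Tendsto (fun t : Finset ι => ∑ i ∈ t, (z i : H →L[ℂ] H) v) atTop (𝓝 v) := hz v
  refine ((h2.inner tendsto_const_nhds).mono_left hU).congr fun t => ?_
  rw [AddSubmonoidClass.coe_finsetSum, sum_apply]

/-- The weak limit of the block averages is a covariant average. -/
theorem exists_glue {ι : Type*} (Ψ : ι → (Alg M →L[ℂ] Alg M) →ₗ[ℂ] Alg M) (z : ι → Alg M)
    (hbd : ∀ φ (t : Finset ι), ‖∑ i ∈ t, Ψ i φ‖ ≤ ‖φ‖)
    (hl : ∀ i c φ, Ψ i ((ContinuousLinearMap.mul ℂ (Alg M) c).comp φ) = c * Ψ i φ)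
    (hr : ∀ i v (φ : Alg M →L[ℂ] Alg M),
      Ψ i (φ.comp (ContinuousLinearMap.mul ℂ (Alg M) v)) = Ψ i φ * v)
    (hfix : ∀ i c, Ψ i (ContinuousLinearMap.mul ℂ (Alg M) c) = c * z i)
    (U : Ultrafilter (Finset ι)) (h1 : Avg.IsWLim U (fun t => ∑ i ∈ t, z i) 1) :
    ∃ Φ : (Alg M →L[ℂ] Alg M) →ₗ[ℂ] Alg M, (∀ φ, ‖Φ φ‖ ≤ ‖φ‖) ∧
      (∀ c φ, Φ ((ContinuousLinearMap.mul ℂ (Alg M) c).comp φ) = c * Φ φ) ∧
      (∀ v φ, Φ (φ.comp (ContinuousLinearMap.mul ℂ (Alg M) v)) = Φ φ * v) ∧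
      ∀ c, Φ (ContinuousLinearMap.mul ℂ (Alg M) c) = c := by
  choose Φ hΦ hΦn using fun φ => Avg.exists_wLim U (fun t => ∑ i ∈ t, Ψ i φ) (hbd φ)
  have key : ∀ φ x, Avg.IsWLim U (fun t => ∑ i ∈ t, Ψ i φ) x → Φ φ = x :=
    fun φ x hx => (hΦ φ).unique hx
  have hadd : ∀ φ ψ, Φ (φ + ψ) = Φ φ + Φ ψ := fun φ ψ => key _ _ <| by
    simpa only [map_add, Finset.sum_add_distrib] using (hΦ φ).add (hΦ ψ)
  have hsmul : ∀ (c : ℂ) φ, Φ (c • φ) = c • Φ φ := fun c φ => key _ _ <| by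
    simpa only [map_smul, Finset.smul_sum] using (hΦ φ).smul c
  have hL : ∀ c φ, Φ ((ContinuousLinearMap.mul ℂ (Alg M) c).comp φ) = c * Φ φ := fun c φ =>
    key _ _ <| by simpa only [hl, Finset.mul_sum] using (hΦ φ).mul_left c
  have hR : ∀ v (φ : Alg M →L[ℂ] Alg M),
      Φ (φ.comp (ContinuousLinearMap.mul ℂ (Alg M) v)) = Φ φ * v := fun v φ =>
    key _ _ <| by simpa only [hr, Finset.sum_mul] using (hΦ φ).mul_right v
  have hF : ∀ c, Φ (ContinuousLinearMap.mul ℂ (Alg M) c) = c := fun c => key _ _ <| by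
    simpa only [hfix, Finset.mul_sum, mul_one] using h1.mul_left c
  exact ⟨{ toFun := Φ, map_add' := hadd, map_smul' := hsmul }, hΦn, hL, hR, hF⟩

/-- A covariant average assembled from the blocks. -/
theorem exists_phi (hT : Scope.HasNormalTraces M) (hI : IsTypeI M) :
    ∃ Φ : (Alg M →L[ℂ] Alg M) →ₗ[ℂ] Alg M, (∀ φ, ‖Φ φ‖ ≤ ‖φ‖) ∧
      (∀ c φ, Φ ((ContinuousLinearMap.mul ℂ (Alg M) c).comp φ) = c * Φ φ) ∧
      (∀ v φ, Φ (φ.comp (ContinuousLinearMap.mul ℂ (Alg M) v)) = Φ φ * v) ∧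
      ∀ c, Φ (ContinuousLinearMap.mul ℂ (Alg M) c) = c := by
  obtain ⟨B, hB1, hB2, hB3⟩ := exists_partition hT hI
  let z : B → Alg M := fun i => ⟨i.1, (hB1 _ i.2).1⟩
  have hblk : ∀ i : B, ∃ (k : ℕ) (e : Fin (k + 1) → Fin (k + 1) → Alg M), IsBlk (z i) e :=
    fun i => exists_blk (hB1 _ i.2) _
  choose k e he using hblk
  choose Ψ hn hz hl hr hfix using fun i => (he i).exists_avg
  let U : Ultrafilter (Finset B) := Ultrafilter.of atTop
  have hU : (U : Filter (Finset B)) ≤ atTop := Ultrafilter.of_le _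
  have hbd : ∀ φ (t : Finset B), ‖∑ i ∈ t, Ψ i φ‖ ≤ ‖φ‖ := fun φ t =>
    norm_blocks_le (fun i => (hB1 _ i.2).2.1) (fun i => (hB1 _ i.2).2.2.1)
      (fun i j hij => hB2 _ i.2 _ j.2 fun h => hij (Subtype.ext h)) (fun i => Ψ i φ)
      (fun i => congrArg Subtype.val (hz i φ)) (norm_nonneg φ) (fun i => hn i φ) t
  exact exists_glue Ψ z hbd hl hr hfix U (isWLim_one z hB3 U hU)

/-- (D): finite algebras of type I. -/
theorem stmtD.{v} : StmtD.{v} := by
  intro H _ _ _ M hT hI n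
  obtain ⟨Φ, hn, hl, hr, hfix⟩ := exists_phi hT hI
  exact vanishes_of_average (Φ.mkContinuous 1 fun φ => by rw [one_mul]; exact hn φ) hl hr hfix n

end Vale.Agent.P082.Every.D
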