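import Vale.Agent.P082.Avg.Tools

/-!
# P082, type I: asymptotically invariant averages on an abelian monoid
-/

namespace Vale.Agent.P082.Every.D

open scoped Topology Classical
open Filter

universe u v

variable {T : Type u} [CommMonoid T]

/-- An index: finitely many elements and a length. -/
abbrev Idx (T : Type u) := Finset T × ℕ

/-- The exponents of an index. -/
abbrev Expo (i : Idx T) := ↥i.1 → Fin (i.2 + 1)

/-- The product of the powers. -/
def pt (i : Idx T) (m : Expo i) : T := ∏ t : ↥i.1, (t : T) ^ (m t : ℕ)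

theorem norm_avg_shift_le {E : Type v} [NormedAddCommGroup E] [NormedSpace ℂ E] (f : T → E) {B : ℝ}
    (hf : ∀ t, ‖f t‖ ≤ B) (i : Idx T) {s : T} (hs : s ∈ i.1) :
    ‖avg (fun m : Expo i => f (pt i m)) - avg (fun m : Expo i => f (s * pt i m))‖ ≤
      2 * B / (i.2 + 1) := by
  set s' : ↥i.1 := ⟨s, hs⟩
  set N := i.2
  set e := Equiv.funSplitAt s' (Fin (N + 1))
  set Q : ({x : ↥i.1 // x ≠ s'} → Fin (N + 1)) → T := fun r => ∏ x, ((x.1 : T)) ^ (r x : ℕ) with hQ
  have hpt : ∀ m : Expo i, pt i m = s ^ ((e m).1 : ℕ) * Q (e m).2 := fun m => by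
    rw [pt, Fintype.prod_eq_mul_prod_subtype_ne (fun t : ↥i.1 => (t : T) ^ (m t : ℕ)) s']
    rfl
  set G : ℕ → E := fun k => avg fun r => f (s ^ k * Q r) with hG
  have hGB : ∀ k, ‖G k‖ ≤ B := fun k => Avg.norm_avg_le fun r => hf _
  have h1 : avg (fun m : Expo i => f (pt i m)) = avg fun k : Fin (N + 1) => G k := by
    rw [Avg.avg_congr (fun m => by rw [hpt]), Avg.avg_equiv e
      (fun q : Fin (N + 1) × _ => f (s ^ (q.1 : ℕ) * Q q.2)), Avg.avg_prod]
  have h2 : avg (fun m : Expo i => f (s * pt i m)) = avg fun k : Fin (N + 1) => G (k + 1) := by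
    rw [Avg.avg_congr (fun m => by rw [hpt, ← mul_assoc, ← pow_succ']), Avg.avg_equiv e
      (fun q : Fin (N + 1) × _ => f (s ^ ((q.1 : ℕ) + 1) * Q q.2)), Avg.avg_prod]
  rw [h1, h2, avg, avg, ← smul_sub, ← Finset.sum_sub_distrib,
    Fin.sum_univ_eq_sum_range (fun k => G k - G (k + 1)) (N + 1), Finset.sum_range_sub', norm_smul,
    norm_inv, Complex.norm_natCast, Fintype.card_fin, Nat.cast_succ, inv_mul_eq_div]
  gcongr
  linarith [norm_sub_le (G 0) (G (N + 1)), hGB 0, hGB (N + 1)]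

/-- An ultrafilter along which the averages forget every translation. -/
theorem exists_mean (T : Type u) [CommMonoid T] :
    ∃ U : Ultrafilter (Idx T), ∀ (E : Type v) [NormedAddCommGroup E] [NormedSpace ℂ E]
      (f : T → E) (B : ℝ), (∀ t, ‖f t‖ ≤ B) → ∀ s : T,
        Tendsto (fun i : Idx T => ‖avg (fun m : Expo i => f (pt i m)) -
          avg (fun m : Expo i => f (s * pt i m))‖) U (𝓝 0) := by
  refine ⟨Ultrafilter.of atTop, fun E _ _ f B hf s => Tendsto.mono_left ?_ (Ultrafilter.of_le _)⟩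
  have hB : 0 ≤ B := (norm_nonneg _).trans (hf 1)
  have h2 : Tendsto (fun i : Idx T => 2 * B / ((i.2 : ℝ) + 1)) atTop (𝓝 0) := by
    rw [← prod_atTop_atTop_eq]
    have h := tendsto_one_div_add_atTop_nhds_zero_nat.const_mul (2 * B)
    rw [mul_zero] at h
    exact (h.comp tendsto_snd).congr fun i => by simp [div_eq_mul_inv]
  refine squeeze_zero' (Eventually.of_forall fun i => norm_nonneg _) ?_ h2
  filter_upwards [eventually_ge_atTop ((({s} : Finset T), 0) : Idx T)] with i hi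
  exact norm_avg_shift_le f hf i (Finset.singleton_subset_iff.1 hi.1)

/-- A function with bounded values. -/
def Bdd {E : Type v} [NormedAddCommGroup E] (f : T → E) : Prop := ∃ B, ∀ t, ‖f t‖ ≤ B

section
variable {H : Type v} [NormedAddCommGroup H] [InnerProductSpace ℂ H] [CompleteSpace H]

/-- An invariant mean with values in the algebra. -/
structure IsMean (M : VonNeumannAlgebra H) (T : Type u) [CommMonoid T]
    (L : (T → Alg M) → Alg M) : Prop where
  add : ∀ f g, Bdd f → Bdd g → L (f + g) = L f + L g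
  smul : ∀ (c : ℂ) f, Bdd f → L (c • f) = c • L f
  norm_le : ∀ f B, (∀ t, ‖f t‖ ≤ B) → ‖L f‖ ≤ B
  mul_left : ∀ x f, Bdd f → L (fun t => x * f t) = x * L f
  mul_right : ∀ x f, Bdd f → L (fun t => f t * x) = L f * x
  shift : ∀ s f, Bdd f → L (fun t => f (s * t)) = L f
  const : ∀ x, L (fun _ => x) = x

/-- There is an invariant mean with values in the algebra. -/
theorem exists_isMean (M : VonNeumannAlgebra H) (T : Type u) [CommMonoid T] :
    ∃ L, IsMean M T L := by
  obtain ⟨U, hU⟩ := exists_mean.{u, v} T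
  let a : (T → Alg M) → Idx T → Alg M := fun f i => avg fun m : Expo i => f (pt i m)
  have hex : ∀ f : T → Alg M, ∃ x : Alg M, ∀ B, (∀ t, ‖f t‖ ≤ B) →
      Avg.IsWLim U (a f) x ∧ ‖x‖ ≤ B := by
    intro f
    by_cases hf : Bdd f
    · obtain ⟨B₀, hB₀⟩ := hf
      obtain ⟨x, hx, -⟩ := Avg.exists_wLim U (a f) fun i => Avg.norm_avg_le fun m => hB₀ _
      refine ⟨x, fun B hB => ⟨hx, ?_⟩⟩
      obtain ⟨y, hy, hyB⟩ := Avg.exists_wLim U (a f) fun i => Avg.norm_avg_le fun m => hB _
      rwa [hx.unique hy]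
    · exact ⟨0, fun B hB => absurd ⟨B, hB⟩ hf⟩
  choose L hL using hex
  have hw : ∀ f, Bdd f → Avg.IsWLim U (a f) (L f) := fun f ⟨B, hB⟩ => (hL f B hB).1
  refine ⟨L, fun f g hf hg => ?_, fun c f hf => ?_, fun f B hB => (hL f B hB).2, fun x f hf => ?_,
    fun x f hf => ?_, fun s f hf => ?_, fun x => ?_⟩
  · obtain ⟨B, hB⟩ := hf
    obtain ⟨C, hC⟩ := hg
    refine (hw (f + g) ⟨B + C, fun t => norm_add_le_of_le (hB t) (hC t)⟩).unique ?_
    rw [show a (f + g) = fun i => a f i + a g i from funext fun i => by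
      simp [a, avg, Finset.sum_add_distrib]]
    exact (hw f ⟨B, hB⟩).add (hw g ⟨C, hC⟩)
  · obtain ⟨B, hB⟩ := hf
    refine (hw (c • f) ⟨‖c‖ * B, fun t => by
      rw [Pi.smul_apply, norm_smul]; exact mul_le_mul_of_nonneg_left (hB t) (norm_nonneg c)⟩).unique ?_
    rw [show a (c • f) = fun i => c • a f i from funext fun i => by
      simp only [a, avg, Pi.smul_apply, ← Finset.smul_sum]; rw [smul_comm]]
    exact (hw f ⟨B, hB⟩).smul c
  · obtain ⟨B, hB⟩ := hf
    refine (hw _ ⟨‖x‖ * B, fun t => (norm_mul_le _ _).trans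
      (mul_le_mul_of_nonneg_left (hB t) (norm_nonneg x))⟩).unique ?_
    rw [show a (fun t => x * f t) = fun i => x * a f i from funext fun i =>
      (Avg.avg_map (LinearMap.mulLeft ℂ x) _).symm]
    exact (hw f ⟨B, hB⟩).mul_left x
  · obtain ⟨B, hB⟩ := hf
    refine (hw _ ⟨B * ‖x‖, fun t => (norm_mul_le _ _).trans
      (mul_le_mul_of_nonneg_right (hB t) (norm_nonneg x))⟩).unique ?_
    rw [show a (fun t => f t * x) = fun i => a f i * x from funext fun i =>
      (Avg.avg_map (LinearMap.mulRight ℂ x) _).symm]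
    exact (hw f ⟨B, hB⟩).mul_right x
  · obtain ⟨B, hB⟩ := hf
    exact (hw _ ⟨B, fun t => hB _⟩).unique ((hw f ⟨B, hB⟩).congr_of_norm (hU _ f B hB s))
  · refine (hw _ ⟨‖x‖, fun _ => le_rfl⟩).unique ?_
    rw [show a (fun _ => x) = fun _ => x from funext fun i => Avg.avg_const x]
    exact Avg.IsWLim.const U x

end

end Vale.Agent.P082.Every.D
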